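import Mathlib
import Vale.Agent.P110.BlockProduct

/-!
No ultraflat Littlewood polynomials with a bounded block factor.
-/

namespace Vale.Agent.Results.P110.NoBlockProductUltraflat

open Vale.Agent.P110

theorem result :
    (∀ (m L : ℕ), m ≠ 0 → L ≠ 0 → ∀ (ε : Fin (L * m) → ℝ) (u : Fin m → ℝ) (v : Fin L → ℝ),
      IsSigns u → IsSigns v → IsBlockProduct ε u v →
      ∀ c : ℝ, 0 ≤ c → c ≤ 1 / 4 → Flat c ε → Flat (4 * c) u ∧ Flat c v) ∧
    ∀ M : ℕ, ∃ c > (0 : ℝ), ∀ (m L : ℕ), 2 ≤ m → 2 ≤ L → (m ≤ M ∨ L ≤ M) →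
      ∀ (ε : Fin (L * m) → ℝ) (u : Fin m → ℝ) (v : Fin L → ℝ),
        IsSigns u → IsSigns v → IsBlockProduct ε u v → ¬ Flat c ε := by
  refine ⟨fun m L hm hL ε u v hu _ h c hc0 hc hf => h.flat hm hL hu hc0 hc hf, fun M => ?_⟩
  obtain ⟨c, hc, hdef⟩ := exists_defect M
  refine ⟨min (c / 4) (1 / 4), lt_min (by positivity) (by norm_num),
    fun m L hm hL hor ε u v hu hv h hf => ?_⟩
  obtain ⟨h1, h2⟩ := h.flat (by omega) (by omega) hu
    (le_min (by positivity) (by norm_num)) (min_le_right _ _) hf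
  rcases hor with hmM | hLM
  · exact hdef m hm hmM u hu (h1.mono (by linarith [min_le_left (c / 4) (1 / 4)]))
  · exact hdef L hL hLM v hv (h2.mono (by linarith [min_le_left (c / 4) (1 / 4)]))

end Vale.Agent.Results.P110.NoBlockProductUltraflat
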