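import Mathlib
import Vale.Agent.P110.Full.Main
import Vale.Agent.P110.Full.Assemble
import Vale.Agent.P110.Full.Square
import Vale.Agent.P110.Full.Owner
import Vale.Agent.P110.Full.Moduli
import Vale.Agent.P110.Full.Gauss
import Vale.Agent.P110.Full.Rounding
import Vale.Agent.P110.Full.Target.Main
import Vale.Agent.P110.Full.Profile
import Vale.Agent.P110.Full.Linear
import Vale.Agent.P110.Full.Fidelity

/-!
Ultraflat Littlewood polynomials with real coefficients exist at all large lengths.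
-/

namespace Vale.Agent.Results.P110.UltraflatLittlewood

open Filter

/-- For every `c > 0` and every large length there are signs whose polynomial has modulus within
a factor `1 ± c` of the square root of the length on the whole circle; in particular there is an
ultraflat sequence. -/
theorem result :
    (∀ c > (0 : ℝ), ∃ N₀ : ℕ, ∀ N ≥ N₀, ∃ ε : Fin N → ℝ, (∀ k, ε k = 1 ∨ ε k = -1) ∧
      ∀ z : ℂ, ‖z‖ = 1 →
        (1 - c) * Real.sqrt N ≤ ‖∑ k : Fin N, (ε k : ℂ) * z ^ (k : ℕ)‖ ∧
        ‖∑ k : Fin N, (ε k : ℂ) * z ^ (k : ℕ)‖ ≤ (1 + c) * Real.sqrt N) ∧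
    ∃ (N : ℕ → ℕ) (ε : (n : ℕ) → Fin (N n) → ℝ), Tendsto N atTop atTop ∧
      (∀ n k, ε n k = 1 ∨ ε n k = -1) ∧
      ∀ η > (0 : ℝ), ∀ᶠ n in atTop, ∀ z : ℂ, ‖z‖ = 1 →
        |‖∑ k : Fin (N n), (ε n k : ℂ) * z ^ (k : ℕ)‖ / Real.sqrt (N n) - 1| ≤ η :=
  have h : Vale.Agent.P110.Full.UltraflatStatement :=
    Vale.Agent.P110.Full.ultraflat_of Vale.Agent.P110.Full.rounding
      (Vale.Agent.P110.Full.target Vale.Agent.P110.Full.profile Vale.Agent.P110.Full.linearPhase)
      (Vale.Agent.P110.Full.tiling_of Vale.Agent.P110.Full.square Vale.Agent.P110.Full.owner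
        Vale.Agent.P110.Full.moduli Vale.Agent.P110.Full.gauss)
  ⟨h, Vale.Agent.P110.Full.exists_sequence_of_statement h⟩

end Vale.Agent.Results.P110.UltraflatLittlewood
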